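import Vale.Agent.P352R.Dm2
import Vale.Agent.P352R.W.Cov
import Vale.Agent.P352R.Sy0

/-!
# P352R: polynomial symbols are combinations of the Wick monomials (helper72)
-/

set_option autoImplicit false
set_option linter.all false

noncomputable section

namespace Vale.Agent.P352R.Rc

open Vale.Agent.P352 Vale.Agent.P352.GF Vale.Agent.P352W Vale.Agent.P352W.Cn
open Vale.Agent.P352W.Fk hiding Wd IsD D0 D rep mk op Ω Ph Tm UU

theorem k2 : K2 := ⟨Cv.wd_nice, fun _ hs hL h => wd_gm hs hL h⟩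

theorem Mo_mk {n j : ℕ} (π : Fin j → Fin n) (μ : Fin j → Ix) {f : Fn} {ψ : Wf} (hf : IsTest f)
    (a : Wd ψ) : Mo π μ f (P352R.mk ψ) = P352R.mk (W n (kS n (tm π μ) f) ψ) := by
  refine k2.op_mk (fun _ h => h.wk π μ hf) (fun _ h => h.wk π μ (Ft.test_bar hf))
    (fun ψ χ a b => ?_) a
  rw [ip_W n (S0.gs_kS π μ hf) a b]
  exact congrArg (fun κ => ip ψ (W n κ χ)) ((Ap.st_sym _ f).trans (by rw [S0.st_tm]; rfl))

/-- the field with a polynomial symbol, on every word -/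
theorem mono' (n : ℕ) (P : MvPolynomial (Fin n × Ix) ℂ) :
    ∃ Φ ∈ Submodule.span ℂ {B | FP B}, ∀ f ψ, IsTest f → Wd ψ →
      Wd (W n (kS n (pv P) f) ψ) ∧ Φ f (P352R.mk ψ) = P352R.mk (W n (kS n (pv P) f) ψ) := by
  obtain ⟨N, c, k, a, μ, e⟩ := S0.kS_pv P
  refine ⟨∑ i, c i • Mo (a i) (μ i), Submodule.sum_mem _ fun i _ => Submodule.smul_mem _ _
    (Submodule.subset_span (.inr (.inr ⟨_, _, a i, μ i, rfl⟩))), fun f ψ hf w => ?_⟩
  have h := fun i => (w.wk (a i) (μ i) hf).smul (c i)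
  rw [e f hf ψ (k2.nice w)]
  refine ⟨K2.wsum _ h, ?_⟩
  rw [k2.mk_sum _ h, Finset.sum_apply, Finset.sum_apply]
  exact Finset.sum_congr rfl fun i _ => by
    rw [k2.mk_smul _ (w.wk (a i) (μ i) hf), ← Mo_mk _ _ hf w]; rfl

theorem mono (n : ℕ) (P : MvPolynomial (Fin n × Ix) ℂ) :
    ∃ Φ ∈ Submodule.span ℂ {B | FP B}, ∀ f χ, IsTest f → Nice χ →
      inner ℂ (Fk.toL χ) (Φ f Ω).1 = ip χ (W n (kS n (pv P) f) vc) := by
  obtain ⟨Φ, h, e⟩ := mono' n P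
  refine ⟨Φ, h, fun f χ hf c => ?_⟩
  obtain ⟨w, e⟩ := e f vc hf .vc
  rw [Ω, e, K2.mk_val w, inner_toL c (k2.nice w)]

end Vale.Agent.P352R.Rc
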