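import Vale.Agent.P352W.Fk.Bas
import Mathlib.MeasureTheory.Function.Holder

/-!
# P352R: the completion of a subspace of a Hilbert space (helper71)
-/

set_option autoImplicit false
set_option linter.all false

open MeasureTheory Filter Topology
open UniformSpace (Completion)

noncomputable section

namespace Vale.Agent.P352R.Rc

section

variable {H : Type*} [NormedAddCommGroup H] [InnerProductSpace ℂ H] [CompleteSpace H]
  (S : Submodule ℂ H)

/-- the completion of a subspace maps into the space -/
def J : Completion S →L[ℂ] H := S.subtypeL.extend Completion.toComplL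

theorem J_coe (v : S) : J S (v : Completion S) = v.1 :=
  S.subtypeL.extend_eq (e := Completion.toComplL) Completion.denseRange_coe
    (Completion.isUniformInducing_coe S) v

theorem J_inner (x y : Completion S) : inner ℂ (J S x) (J S y) = inner ℂ x y := by
  refine Completion.induction_on₂ x y (isClosed_eq (by fun_prop) (by fun_prop)) fun v w => ?_
  rw [J_coe, J_coe, Completion.inner_coe, Submodule.coe_inner]

theorem ext_c {x y : Completion S} (h : ∀ v : S, inner ℂ v.1 (J S x) = inner ℂ v.1 (J S y)) :
    x = y := by
  refine ext_inner_left ℂ fun z => Completion.induction_on z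
    (isClosed_eq (by fun_prop) (by fun_prop)) fun v => ?_
  rw [← J_inner, ← J_inner, J_coe, h]

end

/-- multiplication by a bounded function passes to limits -/
theorem closed_mul {X Y : Type*} [MeasurableSpace X] {μ : Measure X} [TopologicalSpace Y]
    {m : X → ℂ} (hm : AEStronglyMeasurable m μ) (b : ∀ x, ‖m x‖ ≤ 1) {A B : Y → Lp ℂ 2 μ}
    (hA : Continuous A) (hB : Continuous B) :
    IsClosed {y | A y =ᵐ[μ] fun x => m x * B y x} := by
  have k : MemLp m ⊤ μ := memLp_top_of_bound hm 1 (.of_forall b)
  let T : Lp ℂ 2 μ →L[ℂ] Lp ℂ 2 μ := (ContinuousLinearMap.mul ℂ ℂ).holderL μ ⊤ 2 2 (k.toLp m)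
  have e : ∀ v, T v =ᵐ[μ] fun x => m x * v x := fun v => by
    filter_upwards [(ContinuousLinearMap.mul ℂ ℂ).coeFn_holder (r := 2) (k.toLp m) v,
      k.coeFn_toLp] with x h1 h2
    exact h1.trans (by rw [h2]; rfl)
  have : {y | A y =ᵐ[μ] fun x => m x * B y x} = {y | A y = T (B y)} := Set.ext fun y =>
    ⟨fun h => Lp.ext (EventuallyEq.trans (show A y =ᵐ[μ] _ from h) (e _).symm), fun h : A y = T (B y) => by
      show A y =ᵐ[μ] _
      rw [h]
      exact e _⟩
  rw [this]
  exact isClosed_eq hA (T.continuous.comp hB)

end Vale.Agent.P352R.Rc
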